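import Crest.Agent.R78.Loc
import Crest.Agent.R78.CfcB
import Crest.Agent.R232.Tools

/-! # Row 78: one Newton increment for all tests -/

set_option autoImplicit false

namespace Crest.Agent.R78

open scoped InnerProductSpace ComplexOrder BigOperators Topology
open Filter
open Crest.Agent.R124 (Op cm)
open Crest.OpAlg (LineCalculus)

universe u

variable {H : Type u} [NormedAddCommGroup H] [InnerProductSpace ℂ H] [CompleteSpace H]

namespace Glob

lemma norm_comb {E : Type*} [NormedAddCommGroup E] [NormedSpace ℝ E] {x y : E} {a b c : ℝ}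
    (hx : ‖x‖ ≤ c) (hy : ‖y‖ ≤ c) (ha : 0 ≤ a) (hb : 0 ≤ b) (hab : a + b = 1) :
    ‖a • x + b • y‖ ≤ c := by
  have := convex_closedBall (0 : E) c (mem_closedBall_zero_iff.2 hx) (mem_closedBall_zero_iff.2 hy)
    ha hb hab
  exact mem_closedBall_zero_iff.1 this

lemma adm_comb {M N₀ : VN H} {Ω : H} {J : H ≃ₗᵢ⋆[ℂ] H} {X Z u h G α β h' G' α' β' : Op H}
    {C₀ C δ ρ γ a b : ℝ} (h1 : Adm M N₀ Ω J X Z u C₀ C δ ρ γ h G α β)
    (h2 : Adm M N₀ Ω J X Z u C₀ C δ ρ γ h' G' α' β') (ha : 0 ≤ a) (hb : 0 ≤ b) (hab : a + b = 1) :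
    Adm M N₀ Ω J X Z u C₀ C δ ρ γ (a • h + b • h') (a • G + b • G') (a • α + b • α')
      (a • β + b • β') where
  small := convex_sm2 M Ω _ _ h1.small h2.small ha hb hab
  skew := by
    have := convex_sm2 M Ω _ _ h1.skew h2.skew ha hb hab
    have e : a • h + b • h' + star (a • h + b • h') = a • (h + star h) + b • (h' + star h') := by
      simp only [star_add, star_smul, star_trivial, smul_add]; abel
    rw [e]; exact this
  mod := ⟨convex_commute _ h1.mod.1 h2.mod.1 ha hb hab,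
    convex_commute _ h1.mod.2.1 h2.mod.2.1 ha hb hab,
    convex_commute _ h1.mod.2.2.1 h2.mod.2.2.1 ha hb hab,
    convex_commute _ h1.mod.2.2.2 h2.mod.2.2.2 ha hb hab⟩
  α_mem := convex_vn N₀ h1.α_mem h2.α_mem ha hb hab
  β_mem := convex_vn N₀.commutant h1.β_mem h2.β_mem ha hb hab
  α_le := norm_comb h1.α_le h2.α_le ha hb hab
  β_le := norm_comb h1.β_le h2.β_le ha hb hab
  G_le := norm_comb h1.G_le h2.G_le ha hb hab
  drift := by
    have := norm_comb h1.drift h2.drift ha hb hab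
    have e : (1 + (a • h + b • h')) * u - 1 - (a • G + b • G') - (a • α + b • α')
        - (a • β + b • β') =
        a • ((1 + h) * u - 1 - G - α - β) + b • ((1 + h') * u - 1 - G' - α' - β') := by
      have e1 : (a + b) • u = u := by rw [hab, one_smul]
      have e2 : (a + b) • (1 : Op H) = 1 := by rw [hab, one_smul]
      simp only [add_mul, one_mul, smul_mul_assoc, smul_sub, smul_add]
      rw [add_smul] at e1 e2
      linear_combination (norm := abel_nf) -e1 + e2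
    rw [e]; exact this

lemma cm_comb (G G' w : Op H) (a b : ℝ) :
    cm (a • G + b • G') w = a • cm G w + b • cm G' w := by
  simp only [cm, add_mul, mul_add, smul_mul_assoc, mul_smul_comm, smul_sub]; abel

lemma tval_comb (Ω : H) (J : H ≃ₗᵢ⋆[ℂ] H) (h h' x y p : Op H) {a b : ℝ} (ha : 0 ≤ a) (hb : 0 ≤ b)
    (hab : a + b = 1) :
    tval Ω J (a • h + b • h') x y p ^ 2 ≤ a * tval Ω J h x y p ^ 2 + b * tval Ω J h' x y p ^ 2 := by
  have e : cm x p + cm x (cm (a • h + b • h') (jop J (star y))) =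
      a • (cm x p + cm x (cm h (jop J (star y)))) + b • (cm x p + cm x (cm h' (jop J (star y)))) := by
    have e1 : (a + b) • cm x p = cm x p := by rw [hab, one_smul]
    rw [add_smul] at e1
    rw [cm_comb]
    generalize cm h (jop J (star y)) = s
    generalize cm h' (jop J (star y)) = s'
    have e2 : cm x (a • s + b • s') = a • cm x s + b • cm x s' := by
      simp only [cm, add_mul, mul_add, smul_mul_assoc, mul_smul_comm, smul_sub]; abel
    rw [e2, smul_add, smul_add]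
    linear_combination (norm := abel_nf) -e1
  have h1 : tval Ω J (a • h + b • h') x y p ≤ a * tval Ω J h x y p + b * tval Ω J h' x y p := by
    unfold tval
    rw [e]
    rw [add_apply, smul_apply, smul_apply]
    refine (norm_add_le _ _).trans (le_of_eq ?_)
    rw [norm_smul, norm_smul, Real.norm_of_nonneg ha, Real.norm_of_nonneg hb]
  have h0 : 0 ≤ tval Ω J (a • h + b • h') x y p := norm_nonneg _
  set s := tval Ω J h x y p
  set t := tval Ω J h' x y p
  have h2 : (a * s + b * t) ^ 2 ≤ a * s ^ 2 + b * t ^ 2 := by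
    have hb' : b = 1 - a := by linarith
    have := mul_nonneg (mul_nonneg ha hb) (sq_nonneg (s - t))
    subst hb'
    nlinarith
  exact (pow_le_pow_left₀ h0 h1 2).trans h2

lemma wl_cm_left {I : Type*} {l : Filter I} {T : I → Op H} {a : Op H} (h : WL l T a) (c : Op H) :
    WL l (fun i => cm (T i) c) (cm a c) := (h.mul_right c).sub (h.mul_left c)

lemma wl_cm_right {I : Type*} {l : Filter I} {T : I → Op H} {a : Op H} (h : WL l T a) (c : Op H) :
    WL l (fun i => cm c (T i)) (cm c a) := (h.mul_left c).sub (h.mul_right c)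

lemma wl_app {I : Type*} {l : Filter I} [l.NeBot] {T : I → Op H} {a : Op H} (h : WL l T a)
    {ξ : H} {c : ℝ} (hT : ∀ᶠ i in l, ‖T i ξ‖ ≤ c) : ‖a ξ‖ ≤ c := by
  have := h.app_le (ξ := ξ) (ζ := 0) (c := c) (by simpa only [sub_zero] using hT)
  rwa [sub_zero] at this

lemma commute_of_vac {M : VN H} {Ω : H} (hc : Cyc (M : Set (Op H)) Ω) {z : Op H}
    (h : ∀ w, UIn M w → cm z w Ω = 0) : ∀ x ∈ M, Commute x z := by
  have h1 : ∀ x ∈ M, cm z x Ω = 0 := by
    intro x hx
    obtain ⟨v, c, hv, -, rfl⟩ := exists_four hx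
    rw [R124.cm_sum, _root_.sum_apply]
    refine Finset.sum_eq_zero fun i _ => ?_
    rw [R124.cm_smul, smul_apply, h _ (hv i), smul_zero]
  intro x hx
  have h2 : cm z x = 0 := by
    refine ContinuousLinearMap.ext fun ξ => ?_
    have hcl : IsClosed {ξ : H | cm z x ξ = 0} := isClosed_eq (by fun_prop) continuous_const
    refine hc.induction (P := fun ξ => cm z x ξ = 0) ?_ hcl ξ
    rintro _ ⟨y, hy, rfl⟩
    have h3 := h1 (x * y) (mul_mem hx hy)
    rw [R124.cm_mul, add_apply, mul_apply_eq_comp, mul_apply_eq_comp, h1 y hy, map_zero,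
      add_zero] at h3
    exact h3
  exact (sub_eq_zero.1 h2).symm

end Glob

open Glob in
/-- For finite sets of tests: the data `(h, G, α, β)` with `Adm` and the `G`-conditions form a
convex set and `tval² ` is convex in `h`; `R232.minimax` for the upward closed convex set of
vectors dominating the normalised values (reindex finite sets by `Fin m`; if there is no test use
`(1, 1, 1)`).  Then an ultralimit over `Finset × Finset × ℕ`; all conditions are weakly closed.
`[z, w] Ω = 0` for all `w ∈ U(M)` gives `[z, x] y Ω = [z, x y] Ω - x [z, y] Ω = 0` (`exists_four`),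
the same for `M' = J M J`. -/
theorem glob (L : ℝ) (hL : 1 ≤ L) : ∃ C₀ C ρ₀ : ℝ, 0 < C₀ ∧ 0 < C ∧ 0 < ρ₀ ∧ ∀ (H : Type u) [NormedAddCommGroup H] [InnerProductSpace ℂ H] [CompleteSpace H]
    (M N₀ : VN H) (Ω : H) (J : H ≃ₗᵢ⋆[ℂ] H) (X Z u : Op H) (δ ρ γ : ℝ),
    TrJ M Ω J → Pauli M N₀ J X Z → u ∈ unitary (Op H) → Mod J X Z u → 0 < δ → δ ≤ ρ → ρ ≤ ρ₀ →
    CL M N₀ δ → ‖u - 1‖ ≤ ρ → 0 < γ →
    Apx M (cj u N₀) Ω (L * ρ) (L * γ) → ∀ n : ℕ, 1 ≤ n →
    ∃ h z α β : Op H, Adm M N₀ Ω J X Z u C₀ C δ ρ γ h z α β ∧ z ∈ M ∧ z ∈ M.commutant ∧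
      ∀ x y p, Test M (cj u N₀) Ω J X Z (L * ρ) (L * γ) x y p →
        tval Ω J h x y p ≤ C * (1 / √n + n * ρ) * γ := by
  classical
  obtain ⟨C₀, C, ρ₀, hC₀, hC, hρ₀, hloc⟩ := loc.{u} L hL
  refine ⟨C₀, C + 2, ρ₀, hC₀, by linarith, hρ₀, ?_⟩
  intro H _ _ _ M N₀ Ω J X Z u δ ρ γ hJ hP hu hmod hδ hδρ hρ hcl hu1 hγ hapx n hn
  have hρ0 : 0 < ρ := hδ.trans_le hδρ
  have hn0 : (0 : ℝ) < n := by exact_mod_cast hn
  set B : ℝ := C * (1 / n + n ^ 2 * ρ ^ 2) * γ ^ 2 with hB
  have hB0 : 0 < B := by positivity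
  let TT := {t : Op H × Op H × Op H // Test M (cj u N₀) Ω J X Z (L * ρ) (L * γ) t.1 t.2.1 t.2.2}
  let UU := {w : Op H // UIn M w}
  have hL0 : 0 ≤ L := by linarith
  let t0 : TT := ⟨(1, 1, 1), UIn.one M, UIn.one M, Commute.one_left _, Commute.one_left _,
    Commute.one_left _, Commute.one_left _, one_mem _, by
      have e : (1 : Op H) - jop J (star 1) = 0 := by rw [star_one, jop_one hJ.J_J, sub_self]
      change Sm2 M Ω (1 - jop J (star 1)) _ _
      rw [e]
      refine ⟨by rw [norm_zero]; positivity, sm_zero M Ω (by positivity), ?_⟩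
      rw [star_zero]
      exact sm_zero M Ω (by positivity)⟩
  have hfin : ∀ i : Finset TT × Finset UU × ℕ, ∃ h G α β : Op H,
      Adm M N₀ Ω J X Z u C₀ C δ ρ γ h G α β ∧
      (∀ t ∈ i.1, tval Ω J h t.1.1 t.1.2.1 t.1.2.2 ≤ (C + 2) * (1 / √n + n * ρ) * γ) ∧
      ∀ w ∈ i.2.1, ‖cm G w.1 Ω‖ ≤ 1 / (i.2.2 + 1) ∧ ‖cm G (jop J w.1) Ω‖ ≤ 1 / (i.2.2 + 1) := by
    rintro ⟨s, s', k⟩
    let f : Option (Fin s.card) → TT := fun o => o.elim t0 fun j => (s.equivFin.symm j).1
    let g : Fin s'.card → UU := fun j => (s'.equivFin.symm j).1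
    let 𝒦 : Set (Option (Fin s.card) → ℝ) := {v | ∃ h G α β : Op H,
      Adm M N₀ Ω J X Z u C₀ C δ ρ γ h G α β ∧
      (∀ e, 2 / B * tval Ω J h (f e).1.1 (f e).1.2.1 (f e).1.2.2 ^ 2 ≤ v e) ∧
      ∀ e, ‖cm G (g e).1 Ω‖ ≤ 1 / (k + 1) ∧ ‖cm G (jop J (g e).1) Ω‖ ≤ 1 / (k + 1)}
    have hconv : Convex ℝ 𝒦 := by
      rintro v ⟨h, G, α, β, h1, h2, h3⟩ v' ⟨h', G', α', β', h1', h2', h3'⟩ a b ha hb hab
      refine ⟨_, _, _, _, adm_comb h1 h1' ha hb hab, fun e => ?_, fun e => ⟨?_, ?_⟩⟩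
      · have h4 := tval_comb Ω J h h' (f e).1.1 (f e).1.2.1 (f e).1.2.2 ha hb hab
        have h5 := mul_le_mul_of_nonneg_left (h2 e) ha
        have h6 := mul_le_mul_of_nonneg_left (h2' e) hb
        have h7 := mul_le_mul_of_nonneg_left h4 (show 0 ≤ 2 / B by positivity)
        simp only [Pi.add_apply, Pi.smul_apply, smul_eq_mul]
        linarith
      · rw [cm_comb]
        exact norm_comb (h3 e).1 (h3' e).1 ha hb hab
      · rw [cm_comb]
        exact norm_comb (h3 e).2 (h3' e).2 ha hb hab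
    obtain ⟨v, ⟨h, G, α, β, h1, h2, h3⟩, hv⟩ := R232.minimax 𝒦 hconv
      (by
        rintro v ⟨h, G, α, β, -, h2, -⟩ e
        exact le_trans (by positivity) (h2 e))
      (by
        intro π hπ hπ1
        obtain ⟨h, G, α, β, h1, h2, h3⟩ := hloc H M N₀ Ω J X Z u δ ρ γ hJ hP hu hmod hδ hδρ hρ hcl
          hu1 hγ hapx (Option (Fin s.card)) π (fun e => (f e).1.1) (fun e => (f e).1.2.1)
          (fun e => (f e).1.2.2) hπ hπ1 (fun e => (f e).2) (Fin s'.card) (fun e => (g e).1)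
          (fun e => (g e).2) (1 / (k + 1)) (by positivity) n hn
        refine ⟨_, ⟨h, G, α, β, h1, fun e => le_rfl, h3⟩, ?_⟩
        have e1 : ∑ e, π e * (2 / B * tval Ω J h (f e).1.1 (f e).1.2.1 (f e).1.2.2 ^ 2) =
            2 / B * ∑ e, π e * tval Ω J h (f e).1.1 (f e).1.2.1 (f e).1.2.2 ^ 2 := by
          rw [Finset.mul_sum]
          exact Finset.sum_congr rfl fun e _ => by ring
        rw [e1]
        calc _ ≤ 2 / B * B := by gcongr
          _ = 2 := by field_simp)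
    refine ⟨h, G, α, β, h1, fun t ht => ?_, fun w hw => ?_⟩
    · have h4 := (h2 (some (s.equivFin ⟨t, ht⟩))).trans (hv _).le
      have e1 : f (some (s.equivFin ⟨t, ht⟩)) = t := by simp [f]
      rw [e1, div_mul_eq_mul_div, div_le_iff₀ hB0] at h4
      refine (pow_le_pow_iff_left₀ (norm_nonneg _) (by positivity) two_ne_zero).1 ?_
      have h5 : (1 / √n) ^ 2 = 1 / (n : ℝ) := by
        rw [div_pow, Real.sq_sqrt hn0.le, one_pow]
      have h6 : 1 / (n : ℝ) + n ^ 2 * ρ ^ 2 ≤ (1 / √n + n * ρ) ^ 2 := by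
        have : 0 ≤ 1 / √n * (n * ρ) := by positivity
        nlinarith
      have h7 : 3 / 2 * C ≤ (C + 2) ^ 2 := by nlinarith
      calc tval Ω J h t.1.1 t.1.2.1 t.1.2.2 ^ 2
          ≤ 3 / 2 * C * (1 / n + n ^ 2 * ρ ^ 2) * γ ^ 2 := by rw [hB] at h4; linarith
        _ ≤ (C + 2) ^ 2 * (1 / √n + n * ρ) ^ 2 * γ ^ 2 := by gcongr
        _ = _ := by ring
    · have h4 := h3 (s'.equivFin ⟨w, hw⟩)
      have e1 : g (s'.equivFin ⟨w, hw⟩) = w := by simp [g]
      rwa [e1] at h4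
  choose h G α β hA hT hG using hfin
  let 𝒰 : Ultrafilter (Finset TT × Finset UU × ℕ) := Ultrafilter.of atTop
  have h𝒰 : (𝒰 : Filter (Finset TT × Finset UU × ℕ)) ≤ atTop := Ultrafilter.of_le _
  obtain ⟨h₀, -, wh⟩ := exists_wl 𝒰 h (R := C * ρ) (by positivity)
    (Eventually.of_forall fun i => (hA i).small.1)
  obtain ⟨z, hz, wz⟩ := exists_wl 𝒰 G (R := ρ) hρ0.le (Eventually.of_forall fun i => (hA i).G_le)
  obtain ⟨α₀, hα, wα⟩ := exists_wl 𝒰 α (R := C * ρ) (by positivity)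
    (Eventually.of_forall fun i => (hA i).α_le)
  obtain ⟨β₀, hβ, wβ⟩ := exists_wl 𝒰 β (R := C * ρ) (by positivity)
    (Eventually.of_forall fun i => (hA i).β_le)
  have hadm : Adm M N₀ Ω J X Z u C₀ C δ ρ γ h₀ z α₀ β₀ :=
    { small := wh.sm2 (Eventually.of_forall fun i => (hA i).small)
      skew := (wh.add wh.star).sm2 (Eventually.of_forall fun i => (hA i).skew)
      mod := ⟨(wclosed_commute _).mem wh (Eventually.of_forall fun i => (hA i).mod.1),
        (wclosed_commute _).mem wh (Eventually.of_forall fun i => (hA i).mod.2.1),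
        (wclosed_commute _).mem wh (Eventually.of_forall fun i => (hA i).mod.2.2.1),
        (wclosed_commute _).mem wh (Eventually.of_forall fun i => (hA i).mod.2.2.2)⟩
      α_mem := wα.mem (Eventually.of_forall fun i => (hA i).α_mem)
      β_mem := wβ.mem (Eventually.of_forall fun i => (hA i).β_mem)
      α_le := hα
      β_le := hβ
      G_le := hz
      drift := ((((((WL.const _ 1).add wh).mul_right u).sub (WL.const _ 1)).sub wz).sub wα
        |>.sub wβ).norm_le (Eventually.of_forall fun i => (hA i).drift) }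
  have hzero : ∀ w, UIn M w → cm z w Ω = 0 ∧ cm z (jop J w) Ω = 0 := by
    intro w hw
    have key : ∀ k : ℕ, ‖cm z w Ω‖ ≤ 1 / (k + 1) ∧ ‖cm z (jop J w) Ω‖ ≤ 1 / (k + 1) := by
      intro k
      have hev : ∀ᶠ i in (𝒰 : Filter (Finset TT × Finset UU × ℕ)),
          ‖cm (G i) w Ω‖ ≤ 1 / (k + 1) ∧ ‖cm (G i) (jop J w) Ω‖ ≤ 1 / (k + 1) := by
        filter_upwards [h𝒰 (eventually_ge_atTop (∅, {⟨w, hw⟩}, k))] with i hi
        have h1 := hG i ⟨w, hw⟩ (hi.2.1 (Finset.mem_singleton_self _))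
        have h2 : (1 : ℝ) / (i.2.2 + 1) ≤ 1 / (k + 1) := by
          have : (k : ℝ) ≤ i.2.2 := by exact_mod_cast hi.2.2
          gcongr
        exact ⟨h1.1.trans h2, h1.2.trans h2⟩
      exact ⟨wl_app (wl_cm_left wz w) (hev.mono fun _ h => h.1),
        wl_app (wl_cm_left wz _) (hev.mono fun _ h => h.2)⟩
    exact ⟨norm_le_zero_iff.1 (ge_of_tendsto' tendsto_one_div_add_atTop_nhds_zero_nat
        fun k => (key k).1),
      norm_le_zero_iff.1 (ge_of_tendsto' tendsto_one_div_add_atTop_nhds_zero_nat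
        fun k => (key k).2)⟩
  refine ⟨h₀, z, α₀, β₀, hadm.mono (by linarith) hρ0.le hγ.le, ?_, ?_, fun x y p ht => ?_⟩
  · refine mem_of_commute fun y hy => (commute_of_vac hJ.swap.tr.1 (fun w hw => ?_) y hy).symm
    have := (hzero _ (hJ.uin' hw)).2
    rwa [jop_jop hJ.J_J] at this
  · exact mem_commutant_of (commute_of_vac hJ.tr.1 fun w hw => (hzero w hw).1)
  · refine wl_app ((WL.const _ (cm x p)).add (wl_cm_right (wl_cm_left wh _) x)) ?_
    filter_upwards [h𝒰 (eventually_ge_atTop ({⟨(x, y, p), ht⟩}, ∅, 0))] with i hi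
    exact hT i ⟨(x, y, p), ht⟩ (hi.1 (Finset.mem_singleton_self _))

end Crest.Agent.R78
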